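import Vale.Agent.P092.H452.Rp.Levi0

/-!
P092, project RP (helper452): the Cartan decomposition from a decomposition with Levi middle part.
-/

set_option linter.all false

open Module Filter Topology

namespace Vale.Agent.P092.H452.Rp

open Vale.Agent.P092.H213.Rp

section

variable {k : Type} [NontriviallyNormedField k] {L : Type} [AddCommGroup L] [Module k L] {n : ℕ}
  {b : Basis (Fin n) k L}

theorem entries_mul (S T : Module.End k L) {x y : ℝ} (hx0 : 0 ≤ x)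
    (hS : ∀ i j, ‖LinearMap.toMatrix b b S i j‖ ≤ x)
    (hT : ∀ i j, ‖LinearMap.toMatrix b b T i j‖ ≤ y) (i j : Fin n) :
    ‖LinearMap.toMatrix b b (S * T) i j‖ ≤ n * (x * y) := by
  rw [LinearMap.toMatrix_mul, Matrix.mul_apply]
  refine (norm_sum_le _ _).trans ?_
  refine (Finset.sum_le_card_nsmul Finset.univ _ (x * y) fun l _ => ?_).trans (le_of_eq ?_)
  · rw [norm_mul]
    exact mul_le_mul (hS i l) (hT l j) (norm_nonneg _) hx0
  · rw [Finset.card_univ, Fintype.card_fin, nsmul_eq_mul]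

end

variable {k : Type} [NontriviallyNormedField k] [ProperSpace k] [CharZero k] {L : Type} [LieRing L]
  [LieAlgebra k L] {n r : ℕ} {b : Basis (Fin n) k L} {wt : Fin n → Fin r → ℤ} {E F H : Fin r → L}

/-- The Cartan decomposition with bounded factors from a decomposition `ρ g = κ₁ m κ₂` with bounded
`κ₁, κ₂` and an automorphism `m` which preserves the centraliser of the torus. -/
theorem car_of [LieAlgebra.IsKilling k L] (h : Rt b wt E F H) (π : kˣ) (hπ : 1 < ‖(π : k)‖)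
    {ι : Type*} (ρ : ι → Module.End k L) (C₀ : ℝ)
    (hU : ∀ g, ∃ κ₁ κ₁i κ₂ κ₂i m : Module.End k L, κ₁ * κ₁i = 1 ∧ κ₂ * κ₂i = 1 ∧
      (∀ i j, ‖LinearMap.toMatrix b b κ₁ i j‖ ≤ C₀) ∧
      (∀ i j, ‖LinearMap.toMatrix b b κ₁i i j‖ ≤ C₀) ∧
      (∀ i j, ‖LinearMap.toMatrix b b κ₂ i j‖ ≤ C₀) ∧
      (∀ i j, ‖LinearMap.toMatrix b b κ₂i i j‖ ≤ C₀) ∧
      IsAut m ∧ (∀ x ∈ W b wt 0, m x ∈ W b wt 0) ∧ ρ g = κ₁ * m * κ₂) :
    ∃ C : ℝ, ∀ g, ∃ (κ κi κ' κi' : Module.End k L) (t : Fin r → ℤ), κ * κi = 1 ∧ κ' * κi' = 1 ∧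
      (∀ i j, ‖LinearMap.toMatrix b b κ i j‖ ≤ C) ∧
      (∀ i j, ‖LinearMap.toMatrix b b κi i j‖ ≤ C) ∧
      (∀ i j, ‖LinearMap.toMatrix b b κ' i j‖ ≤ C) ∧
      (∀ i j, ‖LinearMap.toMatrix b b κi' i j‖ ≤ C) ∧
      ρ g = κ * tor b wt (fun a => π ^ t a) * κ' := by
  obtain ⟨C, hC⟩ := levi0 h π hπ
  have hle1 : (n : ℝ) * (|C₀| * |C|) ≤ n * (|C₀| * |C|) + |C₀| := by
    linarith [abs_nonneg C₀]
  have hle2 : |C₀| ≤ (n : ℝ) * (|C₀| * |C|) + |C₀| := by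
    have : 0 ≤ (n : ℝ) * (|C₀| * |C|) := by positivity
    linarith
  refine ⟨n * (|C₀| * |C|) + |C₀|, fun g => ?_⟩
  obtain ⟨κ₁, κ₁i, κ₂, κ₂i, m, e1, e2, b1, b2, b3, b4, hm, h0, hg⟩ := hU g
  obtain ⟨κ, κi, t, hκ, g1, g2, hb, hmt⟩ := hC m hm h0
  refine ⟨κ₁ * κ, κi * κ₁i, κ₂, κ₂i, t, ?_, e2, fun i j => ?_, fun i j => ?_, fun i j => ?_,
    fun i j => ?_, ?_⟩
  · rw [mul_assoc, ← mul_assoc κ, g1, one_mul, e1]
  · exact (entries_mul _ _ (abs_nonneg C₀) (fun i j => (b1 i j).trans (le_abs_self _))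
      (fun i j => (hb i j).1.trans (le_abs_self _)) i j).trans hle1
  · have := entries_mul κi κ₁i (abs_nonneg C) (fun i j => (hb i j).2.trans (le_abs_self _))
      (fun i j => (b2 i j).trans (le_abs_self _)) i j
    rw [mul_comm |C|] at this
    exact this.trans hle1
  · exact (b3 i j).trans ((le_abs_self _).trans hle2)
  · exact (b4 i j).trans ((le_abs_self _).trans hle2)
  · rw [hg, hmt, mul_assoc κ₁ κ]

end Vale.Agent.P092.H452.Rp
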