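import Vale.Agent.P092.H452.Rp.Rho
import Mathlib.LinearAlgebra.Matrix.Charpoly.LinearMap
import Mathlib.LinearAlgebra.Matrix.Charpoly.Coeff
import Mathlib.Analysis.Normed.Module.FiniteDimension
import Mathlib.Topology.Algebra.Module.FiniteDimension

/-!
P092, project RP (helper452): the part of the Cartan decomposition in the Levi subgroup. Automorphisms
which preserve all weight spaces are, up to elements of the split torus, uniformly bounded.
-/

set_option linter.all false

open Module Filter Topology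

namespace Vale.Agent.P092.H452.Rp

open Vale.Agent.P092.H213.Rp

section nm

variable {k : Type} [NontriviallyNormedField k] {L : Type} [AddCommGroup L] [Module k L] {n : ℕ}
  (b : Basis (Fin n) k L)

/-- the maximum norm of the coordinates -/
noncomputable def nm (x : L) : ℝ := ‖b.equivFun x‖

theorem nm_nonneg (x : L) : 0 ≤ nm b x := norm_nonneg _

theorem nm_zero : nm b 0 = 0 := by simp [nm]

theorem nm_eq_zero {x : L} : nm b x = 0 ↔ x = 0 := by
  rw [nm, norm_eq_zero, LinearEquiv.map_eq_zero_iff]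

theorem nm_pos {x : L} : 0 < nm b x ↔ x ≠ 0 := by
  rw [lt_iff_le_and_ne]
  exact ⟨fun h h0 => h.2 (by rw [h0, nm_zero]), fun h => ⟨nm_nonneg b x, fun h0 =>
    h ((nm_eq_zero b).1 h0.symm)⟩⟩

theorem nm_smul (c : k) (x : L) : nm b (c • x) = ‖c‖ * nm b x := by
  rw [nm, map_smul, norm_smul, nm]

theorem nm_add (x y : L) : nm b (x + y) ≤ nm b x + nm b y := by
  rw [nm, map_add]
  exact norm_add_le _ _

theorem nm_sum {ι : Type*} (s : Finset ι) (f : ι → L) :
    nm b (∑ i ∈ s, f i) ≤ ∑ i ∈ s, nm b (f i) := by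
  rw [nm, map_sum]
  exact norm_sum_le _ _

theorem repr_le (x : L) (i : Fin n) : ‖b.repr x i‖ ≤ nm b x := by
  have := norm_le_pi_norm (b.equivFun x) i
  simpa [nm, Basis.equivFun_apply] using this

theorem exists_smul_nm {x : L} (hx : x ≠ 0) : ∃ c : k, c ≠ 0 ∧ nm b (c • x) = 1 ∧
    ‖c‖ * nm b x = 1 := by
  have hne : b.equivFun x ≠ 0 := by
    rwa [Ne, LinearEquiv.map_eq_zero_iff]
  have hn : Nonempty (Fin n) := by
    by_contra h
    rw [not_nonempty_iff] at h
    exact hne (Subsingleton.elim _ _)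
  obtain ⟨i, hi⟩ : ∃ i, ‖b.equivFun x‖ = ‖b.equivFun x i‖ := by
    obtain ⟨i, -, hi⟩ := Finset.exists_max_image Finset.univ (fun i => ‖b.equivFun x i‖)
      (Finset.univ_nonempty (α := Fin n))
    refine ⟨i, le_antisymm ?_ (norm_le_pi_norm _ i)⟩
    exact (pi_norm_le_iff_of_nonneg (norm_nonneg _)).2 fun j => hi j (Finset.mem_univ j)
  have h0 : b.equivFun x i ≠ 0 := by
    rw [← norm_ne_zero_iff, ← hi, norm_ne_zero_iff]
    exact hne
  have h1 : ‖(b.equivFun x i)⁻¹‖ * nm b x = 1 := by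
    rw [nm, hi, norm_inv, inv_mul_cancel₀ (norm_ne_zero_iff.2 h0)]
  exact ⟨(b.equivFun x i)⁻¹, inv_ne_zero h0, by rw [nm_smul, h1], h1⟩

end nm

section lie

variable {k : Type} [NontriviallyNormedField k] {L : Type} [LieRing L] [LieAlgebra k L] {n r : ℕ}
  {b : Basis (Fin n) k L} {wt : Fin n → Fin r → ℤ} {E F H : Fin r → L}

variable (b) in
theorem exists_bracket_bound : ∃ B : ℝ, 0 < B ∧ ∀ x y : L, nm b ⁅x, y⁆ ≤ B * (nm b x * nm b y) := by
  refine ⟨(∑ i, ∑ j, nm b ⁅b i, b j⁆) + 1, ?_, fun x y => ?_⟩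
  · have : 0 ≤ ∑ i, ∑ j, nm b ⁅b i, b j⁆ :=
      Finset.sum_nonneg fun i _ => Finset.sum_nonneg fun j _ => nm_nonneg b _
    linarith
  · have hxy : 0 ≤ nm b x * nm b y := mul_nonneg (nm_nonneg b x) (nm_nonneg b y)
    have h0 : ⁅x, y⁆ = ∑ i, ∑ j, (b.repr x i) • (b.repr y j) • ⁅b i, b j⁆ := by
      have e : ∀ i, ⁅b i, y⁆ = ∑ j, (b.repr y j) • ⁅b i, b j⁆ := by
        intro i
        conv_lhs => rw [← b.sum_repr y]
        rw [lie_sum]
        exact Finset.sum_congr rfl fun j _ => lie_smul _ _ _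
      conv_lhs => rw [← b.sum_repr x]
      rw [sum_lie]
      refine Finset.sum_congr rfl fun i _ => ?_
      rw [smul_lie, e i, Finset.smul_sum]
    have h1 : nm b ⁅x, y⁆ ≤ (∑ i, ∑ j, nm b ⁅b i, b j⁆) * (nm b x * nm b y) := by
      rw [h0]
      refine (nm_sum b _ _).trans ?_
      rw [Finset.sum_mul]
      refine Finset.sum_le_sum fun i _ => ?_
      refine (nm_sum b _ _).trans ?_
      rw [Finset.sum_mul]
      refine Finset.sum_le_sum fun j _ => ?_
      rw [nm_smul, nm_smul, ← mul_assoc, mul_comm (nm b ⁅b i, b j⁆)]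
      exact mul_le_mul_of_nonneg_right (mul_le_mul (repr_le b x i) (repr_le b y j) (norm_nonneg _)
        (nm_nonneg b x)) (nm_nonneg b _)
    linarith

/-- Limits of `m_N u_N` with `u_N → 0` and automorphisms `m_N` are nilpotent. -/
theorem nil_of_tendsto {m : ℕ → Module.End k L} (hm : ∀ N, IsAut (m N)) {u : ℕ → L} {v : L}
    (hu : Tendsto (fun N => b.equivFun (u N)) atTop (𝓝 0))
    (hv : Tendsto (fun N => b.equivFun (m N (u N))) atTop (𝓝 (b.equivFun v))) : Nil k v := by
  classical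
  -- the matrix of `ad`
  let A : (Fin n → k) → Matrix (Fin n) (Fin n) k := fun z =>
    ∑ i, z i • LinearMap.toMatrix b b (LieAlgebra.ad k L (b i))
  have hA : ∀ x : L, LinearMap.toMatrix b b (LieAlgebra.ad k L x) = A (b.equivFun x) := by
    intro x
    conv_lhs => rw [← b.sum_repr x]
    rw [map_sum, map_sum]
    refine Finset.sum_congr rfl fun i _ => ?_
    rw [map_smul, map_smul, Basis.equivFun_apply]
  have hAc : Continuous A := by
    refine continuous_finset_sum _ fun i _ => ?_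
    exact (continuous_apply i).smul continuous_const
  have hdet : ∀ N (t : k), (Matrix.scalar (Fin n) t - A (b.equivFun (m N (u N)))).det =
      (Matrix.scalar (Fin n) t - A (b.equivFun (u N))).det := by
    intro N t
    rw [← hA, ← hA]
    set M := LinearMap.toMatrix b b (m N) with hM
    have hMu : IsUnit M.det := by
      rw [← Matrix.isUnit_iff_isUnit_det, hM]
      exact (hm N).1.map (LinearMap.toMatrixAlgEquiv b)
    have e1 : LinearMap.toMatrix b b (LieAlgebra.ad k L (m N (u N))) * M =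
        M * LinearMap.toMatrix b b (LieAlgebra.ad k L (u N)) := by
      rw [hM, ← LinearMap.toMatrix_mul, ← LinearMap.toMatrix_mul]
      congr 1
      refine LinearMap.ext fun y => ?_
      rw [Module.End.mul_apply, Module.End.mul_apply, LieAlgebra.ad_apply, LieAlgebra.ad_apply,
        (hm N).2]
    have e2 : (Matrix.scalar (Fin n) t -
          LinearMap.toMatrix b b (LieAlgebra.ad k L (m N (u N)))) * M =
        M * (Matrix.scalar (Fin n) t - LinearMap.toMatrix b b (LieAlgebra.ad k L (u N))) := by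
      rw [sub_mul, mul_sub, e1, (Matrix.scalar_commute t (fun r => mul_comm _ _) M).eq]
    have e3 := congrArg Matrix.det e2
    rw [Matrix.det_mul, Matrix.det_mul, mul_comm] at e3
    exact mul_left_cancel₀ hMu.ne_zero e3
  have hlim : ∀ t : k, (Matrix.scalar (Fin n) t - A (b.equivFun v)).det = t ^ n := by
    intro t
    have c1 : Continuous fun z : Fin n → k => (Matrix.scalar (Fin n) t - A z).det :=
      (continuous_const.sub hAc).matrix_det
    have l1 := (c1.tendsto (b.equivFun v)).comp hv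
    have l2 := (c1.tendsto 0).comp hu
    have e0 : (Matrix.scalar (Fin n) t - A 0).det = t ^ n := by
      have : A 0 = 0 := by
        show ∑ i, (0 : Fin n → k) i • _ = (0 : Matrix (Fin n) (Fin n) k)
        simp
      rw [this, sub_zero]
      simp [Matrix.scalar_apply, Matrix.det_diagonal]
    rw [e0] at l2
    refine tendsto_nhds_unique ?_ l2
    refine l1.congr fun N => ?_
    exact hdet N t
  have hchar : (A (b.equivFun v)).charpoly = Polynomial.X ^ n := by
    refine Polynomial.funext fun t => ?_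
    rw [Matrix.eval_charpoly, hlim t, Polynomial.eval_pow, Polynomial.eval_X]
  have hnil : (A (b.equivFun v)) ^ n = 0 := by
    have := Matrix.aeval_self_charpoly (A (b.equivFun v))
    rwa [hchar, map_pow, Polynomial.aeval_X] at this
  refine ⟨n, ?_⟩
  have h1 : LinearMap.toMatrixAlgEquiv b (LieAlgebra.ad k L v ^ n) = 0 := by
    rw [map_pow]
    rw [← hA] at hnil
    exact hnil
  exact (map_eq_zero_iff _ (LinearMap.toMatrixAlgEquiv b).injective).1 h1

/-- `m` preserves all weight spaces -/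
def Prs (b : Basis (Fin n) k L) (wt : Fin n → Fin r → ℤ) (m : Module.End k L) : Prop :=
  ∀ μ, ∀ x ∈ W b wt μ, m x ∈ W b wt μ

theorem exists_inv {m : Module.End k L} (hm : IsAut m) :
    ∃ mi : Module.End k L, m * mi = 1 ∧ mi * m = 1 ∧ IsAut mi := by
  obtain ⟨u, hu⟩ := hm.1
  have h1 : m * (↑u⁻¹ : Module.End k L) = 1 := by rw [← hu, Units.mul_inv]
  have h2 : (↑u⁻¹ : Module.End k L) * m = 1 := by rw [← hu, Units.inv_mul]
  have h1' : ∀ x, m ((↑u⁻¹ : Module.End k L) x) = x := fun x => by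
    rw [← Module.End.mul_apply, h1, Module.End.one_apply]
  have h2' : ∀ x, (↑u⁻¹ : Module.End k L) (m x) = x := fun x => by
    rw [← Module.End.mul_apply, h2, Module.End.one_apply]
  refine ⟨↑u⁻¹, h1, h2, u⁻¹.isUnit, fun x y => ?_⟩
  conv_lhs => rw [← h1' x, ← h1' y, ← hm.2, h2']

theorem Prs.inv {m mi : Module.End k L} (hm : Prs b wt m) (h1 : m * mi = 1) (h2 : mi * m = 1) :
    Prs b wt mi := by
  intro μ x hx
  have h2' : ∀ x, mi (m x) = x := fun x => by
    rw [← Module.End.mul_apply, h2, Module.End.one_apply]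
  have hle : (W b wt μ).map m ≤ W b wt μ := by
    rintro _ ⟨y, hy, rfl⟩
    exact hm μ y hy
  have : FiniteDimensional k L := Module.Basis.finiteDimensional_of_finite b
  let e : L ≃ₗ[k] L := LinearEquiv.ofLinear m mi h1 h2
  have heq : (W b wt μ).map m = W b wt μ :=
    Submodule.eq_of_le_of_finrank_eq hle (LinearEquiv.finrank_map_eq e (W b wt μ))
  rw [← heq] at hx
  obtain ⟨y, hy, rfl⟩ := hx
  rw [h2']
  exact hy

theorem lie_of_basis {T : Module.End k L}
    (hT : ∀ i j, T ⁅b i, b j⁆ = ⁅T (b i), T (b j)⁆) (x y : L) : T ⁅x, y⁆ = ⁅T x, T y⁆ := by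
  have h1 : ∀ i y, T ⁅b i, y⁆ = ⁅T (b i), T y⁆ := by
    intro i y
    conv_lhs => rw [← b.sum_repr y]
    conv_rhs => rw [← b.sum_repr y]
    simp only [lie_sum, map_sum, lie_smul, map_smul, hT]
  conv_lhs => rw [← b.sum_repr x]
  conv_rhs => rw [← b.sum_repr x]
  simp only [sum_lie, map_sum, smul_lie, map_smul, h1]

theorem tor_basis (t : Fin r → kˣ) (i : Fin n) :
    tor b wt t (b i) = ((∏ a, t a ^ wt i a : kˣ) : k) • b i := by
  rw [tor, Basis.constr_basis]

theorem tor_of_mem (t : Fin r → kˣ) {μ : Fin r → ℤ} {x : L} (hx : x ∈ W b wt μ) :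
    tor b wt t x = ((∏ a, t a ^ μ a : kˣ) : k) • x := by
  rw [W] at hx
  induction hx using Submodule.span_induction with
  | mem x hx =>
    obtain ⟨i, hi, rfl⟩ := hx
    rw [tor_basis, hi]
  | zero => simp
  | add x y _ _ h1 h2 => rw [map_add, h1, h2, smul_add]
  | smul c x _ h1 => rw [map_smul, h1, smul_comm]

theorem tor_mul (t s : Fin r → kˣ) : tor b wt t * tor b wt s = tor b wt (t * s) := by
  refine b.ext fun i => ?_
  rw [Module.End.mul_apply, tor_basis, map_smul, tor_basis, tor_basis, smul_smul, ← Units.val_mul,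
    ← Finset.prod_mul_distrib]
  refine congrArg (fun c : kˣ => (c : k) • b i) (Finset.prod_congr rfl fun a _ => ?_)
  rw [Pi.mul_apply, mul_zpow, mul_comm]

theorem tor_one : tor b wt (1 : Fin r → kˣ) = 1 := by
  refine b.ext fun i => ?_
  rw [tor_basis]
  simp

theorem tor_mul_inv (t : Fin r → kˣ) : tor b wt t * tor b wt t⁻¹ = 1 := by
  rw [tor_mul, mul_inv_cancel, tor_one]

theorem tor_inv_mul (t : Fin r → kˣ) : tor b wt t⁻¹ * tor b wt t = 1 := by
  rw [tor_mul, inv_mul_cancel, tor_one]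

theorem tor_isAut (h : Rt b wt E F H) (t : Fin r → kˣ) : IsAut (tor b wt t) := by
  refine ⟨isUnit_iff_exists.2 ⟨tor b wt t⁻¹, tor_mul_inv t, tor_inv_mul t⟩,
    lie_of_basis (b := b) fun i j => ?_⟩
  rw [tor_of_mem t (h.grad _ _ _ (basis_mem_W i) _ (basis_mem_W j)), tor_basis, tor_basis,
    smul_lie, lie_smul, smul_smul, ← Units.val_mul, ← Finset.prod_mul_distrib]
  refine congrArg (fun c : kˣ => (c : k) • ⁅b i, b j⁆) (Finset.prod_congr rfl fun a _ => ?_)
  rw [Pi.add_apply, zpow_add]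

theorem tor_prs (t : Fin r → kˣ) : Prs b wt (tor b wt t) := by
  intro μ x hx
  rw [tor_of_mem t hx]
  exact Submodule.smul_mem _ _ hx

theorem IsAut.mul' {S T : Module.End k L} (hS : IsAut S) (hT : IsAut T) : IsAut (S * T) :=
  ⟨hS.1.mul hT.1, fun x y => by
    rw [Module.End.mul_apply, hT.2, hS.2, Module.End.mul_apply, Module.End.mul_apply]⟩

end lie

section bdd

variable {k : Type} [NontriviallyNormedField k] [ProperSpace k] {L : Type} [LieRing L]
  [LieAlgebra k L] {n r : ℕ} {b : Basis (Fin n) k L} {wt : Fin n → Fin r → ℤ} {E F H : Fin r → L}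

/-- Automorphisms which preserve the weight spaces are uniformly bounded on the weight space `0`. -/
theorem bdd_zero (h : Rt b wt E F H) : ∃ C : ℝ, 0 < C ∧ ∀ m : Module.End k L, IsAut m →
    Prs b wt m → ∀ x ∈ W b wt 0, nm b (m x) ≤ C * nm b x := by
  by_contra hcon
  push Not at hcon
  have hN : ∀ N : ℕ, ∃ (m : Module.End k L) (x : L), IsAut m ∧ Prs b wt m ∧ x ∈ W b wt 0 ∧
      ((N : ℝ) + 1) * nm b x < nm b (m x) := by
    intro N
    obtain ⟨m, h1, h2, x, h3, h4⟩ := hcon ((N : ℝ) + 1) (by positivity)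
    exact ⟨m, x, h1, h2, h3, h4⟩
  choose m x hm hp hx hlt using hN
  have hne : ∀ N, m N (x N) ≠ 0 := by
    intro N
    rw [← nm_pos b]
    exact lt_of_le_of_lt (mul_nonneg (by positivity) (nm_nonneg b _)) (hlt N)
  choose c hc0 hc1 hc2 using fun N => exists_smul_nm b (hne N)
  set u : ℕ → L := fun N => c N • x N with hu
  have hmu : ∀ N, m N (u N) = c N • m N (x N) := fun N => by rw [hu]; simp
  have hun : ∀ N, nm b (u N) ≤ 1 / ((N : ℝ) + 1) := by
    intro N
    rw [hu]
    simp only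
    rw [nm_smul, le_div_iff₀ (by positivity)]
    have := mul_lt_mul_of_pos_left (hlt N) (norm_pos_iff.2 (hc0 N))
    rw [hc2 N] at this
    nlinarith
  have hu0 : Tendsto (fun N => b.equivFun (u N)) atTop (𝓝 0) := by
    rw [tendsto_zero_iff_norm_tendsto_zero]
    exact squeeze_zero (fun N => norm_nonneg _) hun tendsto_one_div_add_atTop_nhds_zero_nat
  have hsph : ∀ N, b.equivFun (m N (u N)) ∈ Metric.sphere (0 : Fin n → k) 1 := by
    intro N
    rw [mem_sphere_zero_iff_norm, hmu]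
    exact hc1 N
  obtain ⟨z, hz, φ, hφ, hlim⟩ := (isCompact_sphere (0 : Fin n → k) 1).tendsto_subseq hsph
  have hnil : Nil k (b.equivFun.symm z) :=
    nil_of_tendsto (m := fun N => m (φ N)) (fun N => hm _) (u := fun N => u (φ N))
      (hu0.comp hφ.tendsto_atTop) (by rw [LinearEquiv.apply_symm_apply]; exact hlim)
  have hW : b.equivFun.symm z ∈ W b wt 0 := by
    rw [mem_W]
    intro i hi
    have l1 : Tendsto (fun N => b.equivFun (m (φ N) (u (φ N))) i) atTop (𝓝 (z i)) :=
      ((continuous_apply i).tendsto z).comp hlim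
    have l2 : (fun N => b.equivFun (m (φ N) (u (φ N))) i) = fun _ => 0 := by
      funext N
      have h0 : m (φ N) (u (φ N)) ∈ W b wt 0 :=
        hp _ 0 _ (Submodule.smul_mem _ _ (hx _))
      rw [Basis.equivFun_apply]
      exact mem_W.1 h0 i hi
    rw [l2] at l1
    have := tendsto_nhds_unique l1 tendsto_const_nhds
    rw [← Basis.equivFun_apply, LinearEquiv.apply_symm_apply]
    exact this
  have h0 := h.aniso _ hW hnil
  rw [LinearEquiv.map_eq_zero_iff] at h0
  rw [mem_sphere_zero_iff_norm, h0, norm_zero] at hz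
  exact zero_ne_one hz

theorem bracket_expand (x y : L) : b.equivFun ⁅x, y⁆ =
    ∑ i, ∑ j, (b.equivFun x i) • (b.equivFun y j) • b.equivFun ⁅b i, b j⁆ := by
  have e : ∀ i, ⁅b i, y⁆ = ∑ j, (b.equivFun y j) • ⁅b i, b j⁆ := by
    intro i
    conv_lhs => rw [← b.sum_equivFun y]
    rw [lie_sum]
    exact Finset.sum_congr rfl fun j _ => lie_smul _ _ _
  have h0 : ⁅x, y⁆ = ∑ i, ∑ j, (b.equivFun x i) • (b.equivFun y j) • ⁅b i, b j⁆ := by
    conv_lhs => rw [← b.sum_equivFun x]
    rw [sum_lie]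
    refine Finset.sum_congr rfl fun i _ => ?_
    rw [smul_lie, e i, Finset.smul_sum]
  rw [h0, map_sum]
  refine Finset.sum_congr rfl fun i _ => ?_
  rw [map_sum]
  refine Finset.sum_congr rfl fun j _ => ?_
  rw [map_smul, map_smul]

/-- The pairing of opposite root spaces is nondegenerate, with a constant. -/
theorem pair_bdd (h : Rt b wt E F H) {μ : Fin r → ℤ} (hμ : μ ≠ 0) : ∃ c : ℝ, 0 < c ∧
    ∀ x ∈ W b wt μ, ∀ y ∈ W b wt (-μ), c * (nm b x * nm b y) ≤ nm b ⁅x, y⁆ := by
  set K : Set ((Fin n → k) × (Fin n → k)) := {p | (p.1 ∈ Metric.sphere (0 : Fin n → k) 1 ∧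
    p.2 ∈ Metric.sphere (0 : Fin n → k) 1) ∧ (∀ i, wt i ≠ μ → p.1 i = 0) ∧
    ∀ i, wt i ≠ -μ → p.2 i = 0} with hK
  have hKc : IsCompact K := by
    refine ((isCompact_sphere (0 : Fin n → k) 1).prod
      (isCompact_sphere (0 : Fin n → k) 1)).of_isClosed_subset ?_ fun p hp => hp.1
    refine ((Metric.isClosed_sphere.preimage continuous_fst).inter
      (Metric.isClosed_sphere.preimage continuous_snd)).inter (IsClosed.inter ?_ ?_)
    · have : {p : (Fin n → k) × (Fin n → k) | ∀ i, wt i ≠ μ → p.1 i = 0} =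
          ⋂ i, ⋂ _ : wt i ≠ μ, {p | p.1 i = 0} := by
        ext p
        simp
      rw [show (fun p : (Fin n → k) × (Fin n → k) => ∀ i, wt i ≠ μ → p.1 i = 0) =
        {p : (Fin n → k) × (Fin n → k) | ∀ i, wt i ≠ μ → p.1 i = 0} from rfl, this]
      exact isClosed_iInter fun i => isClosed_iInter fun _ => isClosed_eq
        ((continuous_apply i).comp continuous_fst) continuous_const
    · have : {p : (Fin n → k) × (Fin n → k) | ∀ i, wt i ≠ -μ → p.2 i = 0} =
          ⋂ i, ⋂ _ : wt i ≠ -μ, {p | p.2 i = 0} := by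
        ext p
        simp
      rw [show (fun p : (Fin n → k) × (Fin n → k) => ∀ i, wt i ≠ -μ → p.2 i = 0) =
        {p : (Fin n → k) × (Fin n → k) | ∀ i, wt i ≠ -μ → p.2 i = 0} from rfl, this]
      exact isClosed_iInter fun i => isClosed_iInter fun _ => isClosed_eq
        ((continuous_apply i).comp continuous_snd) continuous_const
  set f : (Fin n → k) × (Fin n → k) → ℝ := fun p =>
    ‖∑ i, ∑ j, (p.1 i) • (p.2 j) • b.equivFun ⁅b i, b j⁆‖ with hf
  have hfc : Continuous f := by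
    refine continuous_norm.comp (continuous_finset_sum _ fun i _ => continuous_finset_sum _ fun j _ =>
      ?_)
    exact ((continuous_apply i).comp continuous_fst).smul
      (((continuous_apply j).comp continuous_snd).smul continuous_const)
  have hfx : ∀ x y : L, f (b.equivFun x, b.equivFun y) = nm b ⁅x, y⁆ := by
    intro x y
    rw [nm, bracket_expand]
  have hmem : ∀ x ∈ W b wt μ, ∀ y ∈ W b wt (-μ), x ≠ 0 → y ≠ 0 → ∃ (c d : k),
      ‖c‖ * nm b x = 1 ∧ ‖d‖ * nm b y = 1 ∧
      (b.equivFun (c • x), b.equivFun (d • y)) ∈ K := by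
    intro x hx y hy hx0 hy0
    obtain ⟨c, -, hc1, hc2⟩ := exists_smul_nm b hx0
    obtain ⟨d, -, hd1, hd2⟩ := exists_smul_nm b hy0
    refine ⟨c, d, hc2, hd2, ⟨?_, ?_⟩, ?_, ?_⟩
    · rw [mem_sphere_zero_iff_norm]
      exact hc1
    · rw [mem_sphere_zero_iff_norm]
      exact hd1
    · intro i hi
      exact mem_W.1 (Submodule.smul_mem _ c hx) i hi
    · intro i hi
      exact mem_W.1 (Submodule.smul_mem _ d hy) i hi
  rcases K.eq_empty_or_nonempty with hKe | hKn
  · refine ⟨1, one_pos, fun x hx y hy => ?_⟩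
    by_cases hx0 : x = 0
    · rw [hx0, nm_zero]
      simpa using nm_nonneg b _
    by_cases hy0 : y = 0
    · rw [hy0, nm_zero]
      simpa using nm_nonneg b _
    obtain ⟨c, d, -, -, hcd⟩ := hmem x hx y hy hx0 hy0
    rw [hKe] at hcd
    exact absurd hcd (Set.notMem_empty _)
  · obtain ⟨p, hp, hmin⟩ := hKc.exists_isMinOn hKn hfc.continuousOn
    have hp1 : b.equivFun.symm p.1 ∈ W b wt μ := by
      rw [mem_W]
      intro i hi
      rw [← Basis.equivFun_apply, LinearEquiv.apply_symm_apply]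
      exact hp.2.1 i hi
    have hp2 : b.equivFun.symm p.2 ∈ W b wt (-μ) := by
      rw [mem_W]
      intro i hi
      rw [← Basis.equivFun_apply, LinearEquiv.apply_symm_apply]
      exact hp.2.2 i hi
    have hpos : 0 < f p := by
      have h1 := hfx (b.equivFun.symm p.1) (b.equivFun.symm p.2)
      rw [LinearEquiv.apply_symm_apply, LinearEquiv.apply_symm_apply] at h1
      rw [show f p = f (p.1, p.2) from rfl, h1, nm_pos]
      refine h.pair μ hμ _ hp1 _ hp2 ?_ ?_
      · rw [Ne, LinearEquiv.map_eq_zero_iff]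
        intro h0
        have := hp.1.1
        rw [mem_sphere_zero_iff_norm, h0, norm_zero] at this
        exact zero_ne_one this
      · rw [Ne, LinearEquiv.map_eq_zero_iff]
        intro h0
        have := hp.1.2
        rw [mem_sphere_zero_iff_norm, h0, norm_zero] at this
        exact zero_ne_one this
    refine ⟨f p, hpos, fun x hx y hy => ?_⟩
    by_cases hx0 : x = 0
    · rw [hx0, nm_zero]
      simpa using nm_nonneg b _
    by_cases hy0 : y = 0
    · rw [hy0, nm_zero]
      simpa using nm_nonneg b _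
    obtain ⟨c, d, hc, hd, hcd⟩ := hmem x hx y hy hx0 hy0
    have h1 := hmin hcd
    rw [Set.mem_setOf_eq, hfx, smul_lie, lie_smul, nm_smul, nm_smul] at h1
    have h2 : f p * (nm b x * nm b y) ≤
        (‖c‖ * (‖d‖ * nm b ⁅x, y⁆)) * (nm b x * nm b y) :=
      mul_le_mul_of_nonneg_right h1 (mul_nonneg (nm_nonneg b x) (nm_nonneg b y))
    have h3 : (‖c‖ * (‖d‖ * nm b ⁅x, y⁆)) * (nm b x * nm b y) =
        (‖c‖ * nm b x) * (‖d‖ * nm b y) * nm b ⁅x, y⁆ := by ring
    rw [h3, hc, hd] at h2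
    linarith

/-- Products of the expansions on opposite root spaces are bounded. -/
theorem pair_quot (h : Rt b wt E F H) {μ : Fin r → ℤ} (hμ : μ ≠ 0) : ∃ K : ℝ, 0 < K ∧
    ∀ m : Module.End k L, IsAut m → Prs b wt m → ∀ x ∈ W b wt μ, ∀ y ∈ W b wt (-μ),
      nm b x * nm b y ≤ K * (nm b (m x) * nm b (m y)) ∧
      nm b (m x) * nm b (m y) ≤ K * (nm b x * nm b y) := by
  obtain ⟨c, hc, h1⟩ := pair_bdd h hμ
  obtain ⟨C, hC, h2⟩ := bdd_zero h
  obtain ⟨B, hB, h3⟩ := exists_bracket_bound b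
  have key : ∀ m : Module.End k L, IsAut m → Prs b wt m → ∀ x ∈ W b wt μ, ∀ y ∈ W b wt (-μ),
      nm b x * nm b y ≤ (C * B / c) * (nm b (m x) * nm b (m y)) := by
    intro m hm hp x hx y hy
    obtain ⟨mi, e1, e2, hmi⟩ := exists_inv hm
    have e2' : ∀ x, mi (m x) = x := fun x => by
      rw [← Module.End.mul_apply, e2, Module.End.one_apply]
    have h0 : ⁅x, y⁆ ∈ W b wt 0 := by
      have := h.grad _ _ _ hx _ hy
      rwa [add_neg_cancel] at this
    have h4 := h2 mi hmi (hp.inv e1 e2) (m ⁅x, y⁆) (hp 0 _ h0)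
    rw [e2', hm.2] at h4
    have h5 := h1 x hx y hy
    have h6 := h3 (m x) (m y)
    have h7 : c * (nm b x * nm b y) ≤ C * (B * (nm b (m x) * nm b (m y))) :=
      h5.trans (h4.trans (mul_le_mul_of_nonneg_left h6 hC.le))
    rw [div_mul_eq_mul_div, le_div_iff₀ hc]
    linarith
  refine ⟨C * B / c, by positivity, fun m hm hp x hx y hy => ⟨key m hm hp x hx y hy, ?_⟩⟩
  obtain ⟨mi, e1, e2, hmi⟩ := exists_inv hm
  have e2' : ∀ x, mi (m x) = x := fun x => by
    rw [← Module.End.mul_apply, e2, Module.End.one_apply]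
  have := key mi hmi (hp.inv e1 e2) (m x) (hp _ _ hx) (m y) (hp _ _ hy)
  rwa [e2', e2'] at this

/-- A family of Lie homomorphisms which is bounded on generators is bounded. -/
theorem bdd_of_gen (h : Rt b wt E F H) (D : ℝ) : ∃ C : ℝ, ∀ T : Module.End k L,
    (∀ x y, T ⁅x, y⁆ = ⁅T x, T y⁆) → (∀ x ∈ W b wt 0, nm b (T x) ≤ D * nm b x) →
    (∀ a, ∀ x ∈ W b wt (Pi.single a 1), nm b (T x) ≤ D * nm b x) →
    (∀ a, ∀ x ∈ W b wt (-Pi.single a 1), nm b (T x) ≤ D * nm b x) →
    ∀ i j, ‖LinearMap.toMatrix b b T i j‖ ≤ C := by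
  obtain ⟨B, hB, h3⟩ := exists_bracket_bound b
  set 𝒯 : Set (Module.End k L) := {T | (∀ x y, T ⁅x, y⁆ = ⁅T x, T y⁆) ∧
    (∀ x ∈ W b wt 0, nm b (T x) ≤ D * nm b x) ∧
    (∀ a, ∀ x ∈ W b wt (Pi.single a 1), nm b (T x) ≤ D * nm b x) ∧
    (∀ a, ∀ x ∈ W b wt (-Pi.single a 1), nm b (T x) ≤ D * nm b x)} with h𝒯
  let S : LieSubalgebra k L :=
    { carrier := {x | ∃ C : ℝ, ∀ T ∈ 𝒯, nm b (T x) ≤ C}
      add_mem' := by
        rintro x y ⟨C, hC⟩ ⟨C', hC'⟩
        refine ⟨C + C', fun T hT => ?_⟩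
        rw [map_add]
        exact (nm_add b _ _).trans (add_le_add (hC T hT) (hC' T hT))
      zero_mem' := ⟨0, fun T hT => by rw [map_zero, nm_zero]⟩
      smul_mem' := by
        rintro c x ⟨C, hC⟩
        refine ⟨‖c‖ * C, fun T hT => ?_⟩
        rw [map_smul, nm_smul]
        exact mul_le_mul_of_nonneg_left (hC T hT) (norm_nonneg _)
      lie_mem' := by
        rintro x y ⟨C, hC⟩ ⟨C', hC'⟩
        refine ⟨B * (|C| * |C'|), fun T hT => ?_⟩
        rw [hT.1]
        refine (h3 _ _).trans (mul_le_mul_of_nonneg_left ?_ hB.le)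
        exact mul_le_mul ((hC T hT).trans (le_abs_self _)) ((hC' T hT).trans (le_abs_self _))
          (nm_nonneg b _) (abs_nonneg _) }
  have hS : S = ⊤ := by
    rw [eq_top_iff, ← h.gen, LieSubalgebra.lieSpan_le]
    rintro x (hx | ⟨a, hx | hx⟩)
    · exact ⟨D * nm b x, fun T hT => hT.2.1 x hx⟩
    · exact ⟨D * nm b x, fun T hT => hT.2.2.1 a x hx⟩
    · exact ⟨D * nm b x, fun T hT => hT.2.2.2 a x hx⟩
  have hall : ∀ x : L, ∃ C : ℝ, ∀ T ∈ 𝒯, nm b (T x) ≤ C := by
    intro x
    have : x ∈ S := by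
      rw [hS]
      exact LieSubalgebra.mem_top x
    exact this
  choose C hC using fun j => hall (b j)
  refine ⟨∑ j, |C j|, fun T h1 h2 h4 h5 i j => ?_⟩
  rw [LinearMap.toMatrix_apply]
  refine (repr_le b _ i).trans ((hC j T ⟨h1, h2, h4, h5⟩).trans ((le_abs_self _).trans ?_))
  exact Finset.single_le_sum (f := fun j => |C j|) (fun j _ => abs_nonneg _) (Finset.mem_univ j)

omit [ProperSpace k] in
theorem tor_zero' (s : Fin r → kˣ) {x : L} (hx : x ∈ W b wt 0) : tor b wt s x = x := by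
  rw [tor_of_mem s hx]
  simp

omit [ProperSpace k] in
theorem tor_single (s : Fin r → kˣ) {a : Fin r} {x : L} (hx : x ∈ W b wt (Pi.single a 1)) :
    tor b wt s x = (s a : k) • x := by
  rw [tor_of_mem s hx, Finset.prod_eq_single a]
  · simp
  · intro j _ hj
    simp [Pi.single_apply, hj]
  · intro h0
    exact absurd (Finset.mem_univ a) h0

omit [ProperSpace k] in
theorem tor_neg_single (s : Fin r → kˣ) {a : Fin r} {x : L}
    (hx : x ∈ W b wt (-Pi.single a 1)) : tor b wt s x = ((s a)⁻¹ : kˣ) • x := by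
  rw [tor_of_mem s hx, Finset.prod_eq_single a]
  · simp [Units.smul_def]
  · intro j _ hj
    simp [Pi.single_apply, hj]
  · intro h0
    exact absurd (Finset.mem_univ a) h0

theorem est {K e f e' f' x x' : ℝ} (hK : 0 < K) (he : 0 < e) (hf : 0 < f) (he' : 0 < e')
    (hf' : 0 < f') (hx : 0 ≤ x) (hx' : 0 ≤ x') (h1 : x * f ≤ K * (x' * f'))
    (h2 : x' * f' ≤ K * (x * f)) (h3 : e * f ≤ K * (e' * f')) (h4 : e' * f' ≤ K * (e * f)) :
    x' ≤ K ^ 2 * (e' / e) * x ∧ x ≤ K ^ 2 * (e / e') * x' := by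
  constructor
  · have h5 : f ≤ K * (e' * f') / e := by
      rw [le_div_iff₀ he]
      linarith
    have h6 : x' * f' ≤ (K ^ 2 * (e' / e) * x) * f' := by
      calc x' * f' ≤ K * (x * f) := h2
        _ ≤ K * (x * (K * (e' * f') / e)) := by gcongr
        _ = (K ^ 2 * (e' / e) * x) * f' := by
          field_simp
    exact le_of_mul_le_mul_right h6 hf'
  · have h5 : f' ≤ K * (e * f) / e' := by
      rw [le_div_iff₀ he']
      linarith
    have h6 : x * f ≤ (K ^ 2 * (e / e') * x') * f := by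
      calc x * f ≤ K * (x' * f') := h1
        _ ≤ K * (x' * (K * (e * f) / e')) := by gcongr
        _ = (K ^ 2 * (e / e') * x') * f := by
          field_simp
    exact le_of_mul_le_mul_right h6 hf

/-- **The Levi part of the Cartan decomposition.** -/
theorem levi (h : Rt b wt E F H) (π : kˣ) (hπ : 1 < ‖(π : k)‖) : ∃ C : ℝ,
    ∀ m : Module.End k L, IsAut m → (∀ μ, ∀ x ∈ W b wt μ, m x ∈ W b wt μ) →
    ∃ (κ κi : Module.End k L) (t : Fin r → ℤ), IsAut κ ∧ κ * κi = 1 ∧ κi * κ = 1 ∧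
      (∀ i j, ‖LinearMap.toMatrix b b κ i j‖ ≤ C ∧ ‖LinearMap.toMatrix b b κi i j‖ ≤ C) ∧
      (∀ μ, ∀ x ∈ W b wt μ, κ x ∈ W b wt μ) ∧ m = κ * tor b wt (fun a => π ^ t a) := by
  classical
  obtain ⟨C₀, hC₀, h0⟩ := bdd_zero h
  have hsing : ∀ a : Fin r, (Pi.single a 1 : Fin r → ℤ) ≠ 0 := by
    intro a h1
    have := congrFun h1 a
    simp at this
  choose K hK h1 using fun a => pair_quot h (hsing a)
  have hE : ∀ a, E a ≠ 0 := fun a h2 => by
    have h3 := (h.tri a).lie_e_f
    rw [h2, zero_lie] at h3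
    exact (h.tri a).h_ne_zero h3.symm
  have hF : ∀ a, F a ≠ 0 := fun a h2 => by
    have h3 := (h.tri a).lie_e_f
    rw [h2, lie_zero] at h3
    exact (h.tri a).h_ne_zero h3.symm
  set P := ‖(π : k)‖ with hP
  have hP0 : 0 < P := one_pos.trans hπ
  set Da : Fin r → ℝ := fun a => (K a) ^ 2 * P + (K a) ^ 2 + K a * P + K a with hDa
  have hDa0 : ∀ a, 0 ≤ Da a := fun a => by
    have := hK a
    simp only [hDa]
    positivity
  set D : ℝ := C₀ + ∑ a, Da a with hD
  have hDC : C₀ ≤ D := by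
    have : 0 ≤ ∑ a, Da a := Finset.sum_nonneg fun a _ => hDa0 a
    linarith
  have hDD : ∀ a, Da a ≤ D := fun a => by
    have : Da a ≤ ∑ a, Da a :=
      Finset.single_le_sum (f := Da) (fun a _ => hDa0 a) (Finset.mem_univ a)
    linarith
  have hD1 : ∀ a, (K a) ^ 2 * P ≤ D := fun a => (by
    have := hK a
    have h2 : 0 ≤ (K a) ^ 2 := by positivity
    have h3 : 0 ≤ K a * P := by positivity
    simp only [hDa]
    linarith : (K a) ^ 2 * P ≤ Da a).trans (hDD a)
  have hD2 : ∀ a, (K a) ^ 2 ≤ D := fun a => (by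
    have := hK a
    have h2 : 0 ≤ (K a) ^ 2 * P := by positivity
    have h3 : 0 ≤ K a * P := by positivity
    simp only [hDa]
    linarith : (K a) ^ 2 ≤ Da a).trans (hDD a)
  have hD3 : ∀ a, K a * P ≤ D := fun a => (by
    have := hK a
    have h2 : 0 ≤ (K a) ^ 2 * P := by positivity
    have h3 : 0 ≤ (K a) ^ 2 := by positivity
    simp only [hDa]
    linarith : K a * P ≤ Da a).trans (hDD a)
  have hD4 : ∀ a, K a ≤ D := fun a => (by
    have := hK a
    have h2 : 0 ≤ (K a) ^ 2 * P := by positivity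
    have h3 : 0 ≤ (K a) ^ 2 := by positivity
    have h4 : 0 ≤ K a * P := by positivity
    simp only [hDa]
    linarith : K a ≤ Da a).trans (hDD a)
  obtain ⟨C, hC⟩ := bdd_of_gen h D
  refine ⟨C, fun m hm hp => ?_⟩
  obtain ⟨mi, e1, e2, hmi⟩ := exists_inv hm
  have e1' : ∀ x, m (mi x) = x := fun x => by
    rw [← Module.End.mul_apply, e1, Module.End.one_apply]
  have hpi : Prs b wt mi := Prs.inv hp e1 e2
  have hinj : ∀ x, x ≠ 0 → m x ≠ 0 := by
    intro x hx h2
    apply hx
    have h3 : mi (m x) = x := by rw [← Module.End.mul_apply, e2, Module.End.one_apply]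
    rw [← h3, h2, map_zero]
  set e : Fin r → ℝ := fun a => nm b (E a) with he
  set e' : Fin r → ℝ := fun a => nm b (m (E a)) with he'
  have he0 : ∀ a, 0 < e a := fun a => (nm_pos b).2 (hE a)
  have he0' : ∀ a, 0 < e' a := fun a => (nm_pos b).2 (hinj _ (hE a))
  have hf0 : ∀ a, 0 < nm b (F a) := fun a => (nm_pos b).2 (hF a)
  have hf0' : ∀ a, 0 < nm b (m (F a)) := fun a => (nm_pos b).2 (hinj _ (hF a))
  -- the estimates on the simple root spaces
  have hx : ∀ a, ∀ x ∈ W b wt (Pi.single a 1), nm b (m x) ≤ (K a) ^ 2 * (e' a / e a) * nm b x ∧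
      nm b x ≤ (K a) ^ 2 * (e a / e' a) * nm b (m x) := by
    intro a x hx
    have g1 := h1 a m hm hp x hx (F a) (h.wF a)
    have g2 := h1 a m hm hp (E a) (h.wE a) (F a) (h.wF a)
    exact est (hK a) (he0 a) (hf0 a) (he0' a) (hf0' a) (nm_nonneg b x) (nm_nonneg b (m x))
      g1.1 g1.2 g2.1 g2.2
  have hy : ∀ a, ∀ y ∈ W b wt (-Pi.single a 1), nm b (m y) ≤ K a * (e a / e' a) * nm b y ∧
      nm b y ≤ K a * (e' a / e a) * nm b (m y) := by
    intro a y hy
    have g1 := h1 a m hm hp (E a) (h.wE a) y hy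
    constructor
    · have g2 := g1.2
      rw [mul_comm] at g2
      have g3 := (le_div_iff₀ (he0' a)).2 g2
      refine g3.trans (le_of_eq ?_)
      simp only [he]
      field_simp
    · have g2 := g1.1
      rw [mul_comm] at g2
      have g3 := (le_div_iff₀ (he0 a)).2 g2
      refine g3.trans (le_of_eq ?_)
      simp only [he']
      field_simp
  -- the scaling
  choose t ht using fun a => exists_mem_Ico_zpow (div_pos (he0' a) (he0 a)) hπ
  have ht1 : ∀ a, P ^ (t a) ≤ e' a / e a := fun a => (ht a).1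
  have ht2 : ∀ a, e' a / e a < P ^ (t a) * P := fun a => by
    have := (ht a).2
    rwa [zpow_add_one₀ hP0.ne'] at this
  have hPt : ∀ a, 0 < P ^ (t a) := fun a => zpow_pos hP0 _
  have hi1 : ∀ a, P ^ (t a) * (e a / e' a) ≤ 1 := fun a => by
    have h2 := mul_le_mul_of_nonneg_right (ht1 a) (div_pos (he0 a) (he0' a)).le
    have h3 : e' a / e a * (e a / e' a) = 1 := by
      have := (he0 a).ne'
      have := (he0' a).ne'
      field_simp
    rwa [h3] at h2
  have hi2 : ∀ a, (P ^ (t a))⁻¹ * (e' a / e a) ≤ P := fun a => by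
    rw [inv_mul_le_iff₀ (hPt a)]
    exact (ht2 a).le
  set s : Fin r → kˣ := fun a => π ^ t a with hs
  have hsn : ∀ a, ‖((s a : kˣ) : k)‖ = P ^ (t a) := fun a => by
    rw [hs]
    simp only [Units.val_zpow_eq_zpow_val, norm_zpow, hP]
  have hsn' : ∀ a, ‖(((s a)⁻¹ : kˣ) : k)‖ = (P ^ (t a))⁻¹ := fun a => by
    rw [Units.val_inv_eq_inv_val, norm_inv, hsn]
  set κ : Module.End k L := m * tor b wt s⁻¹ with hκ
  set κi : Module.End k L := tor b wt s * mi with hκi
  have hκ1 : κ * κi = 1 := by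
    rw [hκ, hκi, mul_assoc, ← mul_assoc (tor b wt s⁻¹), tor_inv_mul, one_mul, e1]
  have hκ2 : κi * κ = 1 := by
    rw [hκ, hκi, mul_assoc, ← mul_assoc mi, e2, one_mul, tor_mul_inv]
  have hκA : IsAut κ := IsAut.mul' hm (tor_isAut h _)
  have hκiA : IsAut κi := IsAut.mul' (tor_isAut h _) hmi
  refine ⟨κ, κi, t, hκA, hκ1, hκ2, fun i j => ⟨?_, ?_⟩, ?_, ?_⟩
  · refine hC κ hκA.2 ?_ ?_ ?_ i j
    · intro x hx0
      rw [hκ, Module.End.mul_apply, tor_zero' _ hx0]
      exact (h0 m hm hp x hx0).trans (mul_le_mul_of_nonneg_right hDC (nm_nonneg b x))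
    · intro a x hxa
      rw [hκ, Module.End.mul_apply, tor_single _ hxa, map_smul, nm_smul, Pi.inv_apply, hsn']
      calc (P ^ t a)⁻¹ * nm b (m x)
          ≤ (P ^ t a)⁻¹ * ((K a) ^ 2 * (e' a / e a) * nm b x) :=
            mul_le_mul_of_nonneg_left (hx a x hxa).1 (inv_pos.2 (hPt a)).le
        _ = (K a) ^ 2 * ((P ^ t a)⁻¹ * (e' a / e a)) * nm b x := by ring
        _ ≤ (K a) ^ 2 * P * nm b x := by
            have := nm_nonneg b x
            have := hi2 a
            gcongr
        _ ≤ D * nm b x := mul_le_mul_of_nonneg_right (hD1 a) (nm_nonneg b x)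
    · intro a y hya
      rw [hκ, Module.End.mul_apply, tor_neg_single _ hya, Pi.inv_apply, inv_inv, Units.smul_def,
        map_smul, nm_smul, hsn]
      calc P ^ t a * nm b (m y) ≤ P ^ t a * (K a * (e a / e' a) * nm b y) :=
            mul_le_mul_of_nonneg_left (hy a y hya).1 (hPt a).le
        _ = K a * (P ^ t a * (e a / e' a)) * nm b y := by ring
        _ ≤ K a * 1 * nm b y := by
            have := nm_nonneg b y
            have := hi1 a
            have := (hK a).le
            gcongr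
        _ = K a * nm b y := by ring
        _ ≤ D * nm b y := mul_le_mul_of_nonneg_right (hD4 a) (nm_nonneg b y)
  · refine hC κi hκiA.2 ?_ ?_ ?_ i j
    · intro x hx0
      rw [hκi, Module.End.mul_apply, tor_zero' _ (hpi 0 x hx0)]
      exact (h0 mi hmi hpi x hx0).trans (mul_le_mul_of_nonneg_right hDC (nm_nonneg b x))
    · intro a x hxa
      rw [hκi, Module.End.mul_apply, tor_single _ (hpi _ x hxa), nm_smul, hsn]
      have g := (hx a (mi x) (hpi _ x hxa)).2
      rw [e1'] at g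
      calc P ^ t a * nm b (mi x) ≤ P ^ t a * ((K a) ^ 2 * (e a / e' a) * nm b x) :=
            mul_le_mul_of_nonneg_left g (hPt a).le
        _ = (K a) ^ 2 * (P ^ t a * (e a / e' a)) * nm b x := by ring
        _ ≤ (K a) ^ 2 * 1 * nm b x := by
            have := nm_nonneg b x
            have := hi1 a
            gcongr
        _ = (K a) ^ 2 * nm b x := by ring
        _ ≤ D * nm b x := mul_le_mul_of_nonneg_right (hD2 a) (nm_nonneg b x)
    · intro a y hya
      rw [hκi, Module.End.mul_apply, tor_neg_single _ (hpi _ y hya), Units.smul_def, nm_smul, hsn']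
      have g := (hy a (mi y) (hpi _ y hya)).2
      rw [e1'] at g
      calc (P ^ t a)⁻¹ * nm b (mi y) ≤ (P ^ t a)⁻¹ * (K a * (e' a / e a) * nm b y) :=
            mul_le_mul_of_nonneg_left g (inv_pos.2 (hPt a)).le
        _ = K a * ((P ^ t a)⁻¹ * (e' a / e a)) * nm b y := by ring
        _ ≤ K a * P * nm b y := by
            have := nm_nonneg b y
            have := hi2 a
            have := (hK a).le
            gcongr
        _ ≤ D * nm b y := mul_le_mul_of_nonneg_right (hD3 a) (nm_nonneg b y)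
  · intro μ x hxμ
    rw [hκ, Module.End.mul_apply]
    exact hp μ _ (tor_prs _ μ x hxμ)
  · rw [hκ, mul_assoc, tor_inv_mul, mul_one]

end bdd

end Vale.Agent.P092.H452.Rp
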