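import Vale.Agent.P092.H452.Rp.Levi
import Vale.Agent.P092.H720.Rp.Pow

/-!
P092, project RP (helper452): automorphisms which preserve the centraliser of the split torus are, up
to elements of the torus, uniformly bounded.
-/

set_option linter.all false

open Module Filter Topology

namespace Vale.Agent.P092.H452.Rp

open Vale.Agent.P092.H213.Rp
open Vale.Agent.P092.H720.Rp (dg lc dg_b exists_h)

section alg

variable {k L : Type} [Field k] [CharZero k] [LieRing L] [LieAlgebra k L] {n r : ℕ}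
  {b : Basis (Fin n) k L} {wt : Fin n → Fin r → ℤ} {E F H : Fin r → L}

/-- automorphisms which preserve the weight space `0` -/
def Lv (b : Basis (Fin n) k L) (wt : Fin n → Fin r → ℤ) (m : Module.End k L) : Prop :=
  IsAut m ∧ ∀ x ∈ W b wt 0, m x ∈ W b wt 0

theorem inv_aut {m : Module.End k L} (hm : IsAut m) :
    ∃ mi : Module.End k L, m * mi = 1 ∧ mi * m = 1 ∧ IsAut mi := by
  obtain ⟨u, hu⟩ := hm.1
  have h1 : m * (↑u⁻¹ : Module.End k L) = 1 := by rw [← hu, Units.mul_inv]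
  have h2 : (↑u⁻¹ : Module.End k L) * m = 1 := by rw [← hu, Units.inv_mul]
  have h1' : ∀ x, m ((↑u⁻¹ : Module.End k L) x) = x := fun x => by
    rw [← Module.End.mul_apply, h1, Module.End.one_apply]
  have h2' : ∀ x, (↑u⁻¹ : Module.End k L) (m x) = x := fun x => by
    rw [← Module.End.mul_apply, h2, Module.End.one_apply]
  refine ⟨↑u⁻¹, h1, h2, u⁻¹.isUnit, fun x y => ?_⟩
  conv_lhs => rw [← h1' x, ← h1' y, ← hm.2, h2']

theorem Lv.inv {m mi : Module.End k L} (hm : Lv b wt m) (hi : IsAut mi) (h1 : m * mi = 1)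
    (h2 : mi * m = 1) : Lv b wt mi := by
  refine ⟨hi, fun x hx => ?_⟩
  have h2' : ∀ x, mi (m x) = x := fun x => by
    rw [← Module.End.mul_apply, h2, Module.End.one_apply]
  have hle : (W b wt 0).map m ≤ W b wt 0 := by
    rintro _ ⟨y, hy, rfl⟩
    exact hm.2 y hy
  have : FiniteDimensional k L := Module.Basis.finiteDimensional_of_finite b
  let e : L ≃ₗ[k] L := LinearEquiv.ofLinear m mi h1 h2
  have heq : (W b wt 0).map m = W b wt 0 :=
    Submodule.eq_of_le_of_finrank_eq hle (LinearEquiv.finrank_map_eq e (W b wt 0))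
  rw [← heq] at hx
  obtain ⟨y, hy, rfl⟩ := hx
  rw [h2']
  exact hy

theorem dg_repr (c : Fin r → k) (x : L) (i : Fin n) :
    b.repr (dg b wt c x) i = lc c (wt i) * b.repr x i := by
  classical
  conv_lhs => rw [← b.sum_repr x]
  rw [map_sum, map_sum, Finsupp.finset_sum_apply, Finset.sum_eq_single i]
  · rw [map_smul, dg_b, map_smul, map_smul]
    simp [mul_comm]
  · intro j _ hj
    rw [map_smul, dg_b, map_smul, map_smul]
    simp [Finsupp.single_eq_of_ne hj.symm]
    first | done | (right; right; exact Finsupp.single_eq_of_ne hj)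
  · intro h0
    exact absurd (Finset.mem_univ i) h0

theorem eq_of_ad [LieAlgebra.IsKilling k L] (b : Basis (Fin n) k L) {x y : L}
    (h : ∀ z : L, ⁅x, z⁆ = ⁅y, z⁆) : x = y := by
  haveI : Module.Finite k L := Module.Finite.of_basis b
  have hc : x - y ∈ LieAlgebra.center k L := by
    rw [LieModule.mem_maxTrivSubmodule]
    intro z
    rw [← lie_skew, sub_lie, h z, sub_self, neg_zero]
  rw [LieAlgebra.center_eq_bot, LieSubmodule.mem_bot] at hc
  exact sub_eq_zero.1 hc

/-- the fundamental coweights -/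
theorem exists_cw [LieAlgebra.IsKilling k L] (h : Rt b wt E F H) : ∃ w : Fin r → L,
    (∀ j, w j ∈ W b wt 0) ∧ (∀ j, ∀ x, ⁅w j, x⁆ = dg b wt (Pi.single j 1) x) := by
  choose w hw using fun j => exists_h h.grad (b := b) (wt := wt) (Pi.single j (1 : k))
  have hw' : ∀ j x, ⁅w j, x⁆ = dg b wt (Pi.single j 1) x := fun j x => by
    rw [← hw j, LieAlgebra.ad_apply]
  refine ⟨w, fun j => ?_, hw'⟩
  have hcomm : ∀ l, ⁅w l, w j⁆ = 0 := by
    intro l
    refine eq_of_ad b fun z => ?_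
    rw [lie_lie, zero_lie, hw', hw', hw', hw']
    refine b.repr.injective (Finsupp.ext fun i => ?_)
    rw [map_sub, Finsupp.sub_apply, dg_repr, dg_repr, dg_repr, dg_repr, map_zero,
      Finsupp.zero_apply]
    ring
  rw [mem_W]
  intro i hi
  obtain ⟨l, hl⟩ : ∃ l, wt i l ≠ 0 := by
    by_contra hn
    push Not at hn
    exact hi (funext hn)
  have h1 := congrArg (fun y => b.repr y i) (hcomm l)
  simp only [hw', dg_repr, map_zero, Finsupp.zero_apply] at h1
  have h2 : lc (Pi.single l (1 : k)) (wt i) = (wt i l : k) := by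
    unfold lc
    rw [Finset.sum_eq_single l]
    · simp
    · intro p _ hp
      simp [Pi.single_eq_of_ne hp]
    · intro h0
      exact absurd (Finset.mem_univ l) h0
  rw [h2] at h1
  rcases mul_eq_zero.1 h1 with h3 | h3
  · exact absurd (by exact_mod_cast h3) hl
  · exact h3

theorem lc_single' (l : Fin r) (μ : Fin r → ℤ) : lc (Pi.single l (1 : k)) μ = (μ l : k) := by
  unfold lc
  rw [Finset.sum_eq_single l]
  · simp
  · intro p _ hp
    simp [Pi.single_eq_of_ne hp]
  · intro h0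
    exact absurd (Finset.mem_univ l) h0

theorem spl_cw {w : L} {j : Fin r} (hw : ∀ x, ⁅w, x⁆ = dg b wt (Pi.single j 1) x) :
    Spl k w := by
  rw [Spl, eq_top_iff, ← b.span_eq, Submodule.span_le]
  rintro _ ⟨i, rfl⟩
  refine Submodule.mem_iSup_of_mem (wt i j) ?_
  rw [egs, Module.End.mem_eigenspace_iff, LieAlgebra.ad_apply, hw, dg_b, lc_single']

theorem spl_map {m mi : Module.End k L} (hm : IsAut m) (h1 : m * mi = 1) {w : L}
    (hw : Spl k w) : Spl k (m w) := by
  have h1' : ∀ x, m (mi x) = x := fun x => by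
    rw [← Module.End.mul_apply, h1, Module.End.one_apply]
  have h3 : ∀ i : ℤ, (egs k w i).map m ≤ egs k (m w) i := by
    rintro i _ ⟨y, hy, rfl⟩
    have hy' : y ∈ egs k w i := hy
    rw [egs, Module.End.mem_eigenspace_iff, LieAlgebra.ad_apply] at hy' ⊢
    rw [← hm.2, hy', map_smul]
  rw [Spl, eq_top_iff]
  intro x _
  have h4 : mi x ∈ ⨆ i : ℤ, egs k w i := by
    rw [show (⨆ i : ℤ, egs k w i) = ⊤ from hw]
    exact Submodule.mem_top
  have h5 : m (mi x) ∈ (⨆ i : ℤ, egs k w i).map m := Submodule.mem_map_of_mem h4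
  rw [h1', Submodule.map_iSup] at h5
  exact (iSup_mono h3) h5

/-- an automorphism which preserves the weight space `0` permutes the weight spaces -/
theorem exists_sigma [LieAlgebra.IsKilling k L] (h : Rt b wt E F H) {m : Module.End k L}
    (hm : Lv b wt m) : ∃ σ : Fin n → Fin n, ∀ i, ∀ x ∈ W b wt (wt i), m x ∈ W b wt (wt (σ i)) := by
  classical
  obtain ⟨mi, e1, e2, hmi⟩ := inv_aut hm.1
  have hLi : Lv b wt mi := hm.inv hmi e1 e2
  have e1' : ∀ x, m (mi x) = x := fun x => by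
    rw [← Module.End.mul_apply, e1, Module.End.one_apply]
  have e2' : ∀ x, mi (m x) = x := fun x => by
    rw [← Module.End.mul_apply, e2, Module.End.one_apply]
  obtain ⟨w, hw0, hw⟩ := exists_cw h
  -- `mi (w l)` is a combination of the coweights
  have hd : ∀ l, ∃ d : Fin r → k, mi (w l) = ∑ j, d j • w j := by
    intro l
    obtain ⟨c, hc⟩ := h.max (mi (w l)) (hLi.2 _ (hw0 l)) (spl_map hmi e2 (spl_cw (hw l)))
    refine ⟨fun j => ((c j : ℚ) : k), eq_of_ad b fun z => ?_⟩
    have h1 : ∀ i, ⁅mi (w l), b i⁆ = ⁅∑ j, (((c j : ℚ) : k)) • w j, b i⁆ := by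
      intro i
      rw [hc i, sum_lie]
      simp only [smul_lie, hw, dg_b, lc_single', smul_smul]
      rw [← Finset.sum_smul]
      congr 1
      push_cast
      exact Finset.sum_congr rfl fun j _ => mul_comm _ _
    conv_lhs => rw [← b.sum_repr z]
    conv_rhs => rw [← b.sum_repr z]
    simp only [lie_sum, lie_smul, h1]
  choose d hd using hd
  -- the weights of `m x`
  have key : ∀ μ, ∀ x ∈ W b wt μ, ∀ i, b.repr (m x) i ≠ 0 → ∀ l,
      (wt i l : k) = ∑ j, d l j * (μ j : k) := by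
    intro μ x hx i hi l
    have h1 : ⁅w l, m x⁆ = (∑ j, d l j * (μ j : k)) • m x := by
      conv_lhs => rw [← e1' (w l), ← hm.1.2, hd l]
      rw [sum_lie, map_sum, Finset.sum_smul]
      refine Finset.sum_congr rfl fun j _ => ?_
      rw [smul_lie, hw, Vale.Agent.P092.H720.Rp.dg_W _ hx, lc_single', smul_smul, map_smul]
    have h2 := congrArg (fun y => b.repr y i) h1
    simp only [hw, dg_repr, lc_single', map_smul, Finsupp.smul_apply, smul_eq_mul] at h2
    exact mul_right_cancel₀ hi h2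
  have hex : ∀ i, ∃ i', b.repr (m (b i)) i' ≠ 0 := by
    intro i
    by_contra hn
    push Not at hn
    have h1 : m (b i) = 0 := b.repr.map_eq_zero_iff.1 (Finsupp.ext hn)
    have h2 := e2' (b i)
    rw [h1, map_zero] at h2
    exact b.ne_zero i h2.symm
  choose σ hσ using hex
  refine ⟨σ, fun i x hx => ?_⟩
  rw [mem_W]
  intro i' hi'
  by_contra h0
  apply hi'
  funext l
  have h1 := key _ x hx i' h0 l
  have h2 := key _ (b i) (basis_mem_W i) (σ i) (hσ i) l
  have h3 : (wt i' l : k) = (wt (σ i) l : k) := h1.trans h2.symm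
  exact_mod_cast h3

end alg

section bdd

variable {k : Type} [NontriviallyNormedField k] [ProperSpace k] [CharZero k] {L : Type} [LieRing L]
  [LieAlgebra k L] {n r : ℕ} {b : Basis (Fin n) k L} {wt : Fin n → Fin r → ℤ} {E F H : Fin r → L}

/-- **The Levi part of the Cartan decomposition, for all automorphisms which preserve the
centraliser of the torus.** -/
theorem levi0 [LieAlgebra.IsKilling k L] (h : Rt b wt E F H) (π : kˣ) (hπ : 1 < ‖(π : k)‖) :
    ∃ C : ℝ, ∀ m : Module.End k L, IsAut m → (∀ x ∈ W b wt 0, m x ∈ W b wt 0) →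
    ∃ (κ κi : Module.End k L) (t : Fin r → ℤ), IsAut κ ∧ κ * κi = 1 ∧ κi * κ = 1 ∧
      (∀ i j, ‖LinearMap.toMatrix b b κ i j‖ ≤ C ∧ ‖LinearMap.toMatrix b b κi i j‖ ≤ C) ∧
      m = κ * tor b wt (fun a => π ^ t a) := by
  classical
  obtain ⟨C, hC⟩ := levi h π hπ
  -- representatives
  have hrep : ∀ σ : Fin n → Fin n, ∃ (p pi : Module.End k L), IsAut p ∧ IsAut pi ∧ p * pi = 1 ∧
      pi * p = 1 ∧ ∀ m : Module.End k L, Lv b wt m →
      (∀ i, ∀ x ∈ W b wt (wt i), m x ∈ W b wt (wt (σ i))) →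
        ∀ i, ∀ x ∈ W b wt (wt i), pi (m x) ∈ W b wt (wt i) := by
    intro σ
    by_cases hex : ∃ p : Module.End k L, Lv b wt p ∧
        ∀ i, ∀ x ∈ W b wt (wt i), p x ∈ W b wt (wt (σ i))
    · obtain ⟨p, hp, hpσ⟩ := hex
      obtain ⟨pi, e1, e2, hpi⟩ := inv_aut hp.1
      have e2' : ∀ x, pi (p x) = x := fun x => by
        rw [← Module.End.mul_apply, e2, Module.End.one_apply]
      refine ⟨p, pi, hp.1, hpi, e1, e2, fun m hm hmσ i x hx => ?_⟩
      obtain ⟨τ, hτ⟩ := exists_sigma h (hp.inv hpi e1 e2)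
      have h1 : wt (τ (σ i)) = wt i := by
        have h2 := hτ (σ i) _ (hpσ i (b i) (basis_mem_W i))
        rw [e2', mem_W] at h2
        by_contra h3
        have h4 := h2 i (fun h5 => h3 h5.symm)
        rw [Basis.repr_self, Finsupp.single_eq_same] at h4
        exact one_ne_zero h4
      rw [← h1]
      exact hτ (σ i) _ (hmσ i x hx)
    · push Not at hex
      refine ⟨1, 1, ⟨isUnit_one, fun _ _ => rfl⟩, ⟨isUnit_one, fun _ _ => rfl⟩, one_mul 1,
        one_mul 1, fun m hm hmσ => ?_⟩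
      obtain ⟨i, x, hx, hx'⟩ := hex m hm
      exact absurd (hmσ i x hx) hx'
  choose p pi hpA hpiA hp1 hp2 hpm using hrep
  set B : ℝ := ∑ σ : Fin n → Fin n, ∑ i, ∑ j, (‖LinearMap.toMatrix b b (p σ) i j‖ +
    ‖LinearMap.toMatrix b b (pi σ) i j‖) with hB
  have hB0 : 0 ≤ B := Finset.sum_nonneg fun _ _ => Finset.sum_nonneg fun _ _ =>
    Finset.sum_nonneg fun _ _ => add_nonneg (norm_nonneg _) (norm_nonneg _)
  have hBle : ∀ σ i j, ‖LinearMap.toMatrix b b (p σ) i j‖ ≤ B ∧
      ‖LinearMap.toMatrix b b (pi σ) i j‖ ≤ B := by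
    intro σ i j
    have h1 : ‖LinearMap.toMatrix b b (p σ) i j‖ + ‖LinearMap.toMatrix b b (pi σ) i j‖ ≤ B := by
      refine le_trans ?_ (Finset.single_le_sum (f := fun σ : Fin n → Fin n =>
        ∑ i, ∑ j, (‖LinearMap.toMatrix b b (p σ) i j‖ + ‖LinearMap.toMatrix b b (pi σ) i j‖))
        (fun _ _ => Finset.sum_nonneg fun _ _ => Finset.sum_nonneg fun _ _ =>
          add_nonneg (norm_nonneg _) (norm_nonneg _)) (Finset.mem_univ σ))
      refine le_trans ?_ (Finset.single_le_sum (f := fun i =>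
        ∑ j, (‖LinearMap.toMatrix b b (p σ) i j‖ + ‖LinearMap.toMatrix b b (pi σ) i j‖))
        (fun _ _ => Finset.sum_nonneg fun _ _ =>
          add_nonneg (norm_nonneg _) (norm_nonneg _)) (Finset.mem_univ i))
      exact Finset.single_le_sum (f := fun j =>
        ‖LinearMap.toMatrix b b (p σ) i j‖ + ‖LinearMap.toMatrix b b (pi σ) i j‖)
        (fun _ _ => add_nonneg (norm_nonneg _) (norm_nonneg _)) (Finset.mem_univ j)
    exact ⟨by linarith [norm_nonneg (LinearMap.toMatrix b b (pi σ) i j)],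
      by linarith [norm_nonneg (LinearMap.toMatrix b b (p σ) i j)]⟩
  refine ⟨n * (B * |C|), fun m hm h0 => ?_⟩
  obtain ⟨σ, hσ⟩ := exists_sigma h (m := m) ⟨hm, h0⟩
  have hm' : IsAut (pi σ * m) := IsAut.mul' (hpiA σ) hm
  have hprs : ∀ μ, ∀ x ∈ W b wt μ, (pi σ * m) x ∈ W b wt μ := by
    intro μ x hx
    by_cases hμ : ∃ i, wt i = μ
    · obtain ⟨i, rfl⟩ := hμ
      exact hpm σ m ⟨hm, h0⟩ hσ i x hx
    · have hx0 : x = 0 := by
        refine b.repr.map_eq_zero_iff.1 (Finsupp.ext fun i => ?_)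
        exact mem_W.1 hx i fun h1 => hμ ⟨i, h1⟩
      rw [hx0, map_zero]
      exact Submodule.zero_mem _
  obtain ⟨κ, κi, t, hκ, g1, g2, hb, -, hm1⟩ := hC _ hm' hprs
  have hent : ∀ (S T : Module.End k L) {x y : ℝ}, 0 ≤ x →
      (∀ i j, ‖LinearMap.toMatrix b b S i j‖ ≤ x) → (∀ i j, ‖LinearMap.toMatrix b b T i j‖ ≤ y) →
      ∀ i j, ‖LinearMap.toMatrix b b (S * T) i j‖ ≤ n * (x * y) := by
    intro S T x y hx0 hS hT i j
    rw [LinearMap.toMatrix_mul, Matrix.mul_apply]
    refine (norm_sum_le _ _).trans ?_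
    refine (Finset.sum_le_card_nsmul Finset.univ _ (x * y) fun l _ => ?_).trans (le_of_eq ?_)
    · rw [norm_mul]
      exact mul_le_mul (hS i l) (hT l j) (norm_nonneg _) hx0
    · rw [Finset.card_univ, Fintype.card_fin, nsmul_eq_mul]
  refine ⟨p σ * κ, κi * pi σ, t, IsAut.mul' (hpA σ) hκ, ?_, ?_, fun i j => ⟨?_, ?_⟩, ?_⟩
  · rw [mul_assoc, ← mul_assoc κ, g1, one_mul, hp1]
  · rw [mul_assoc, ← mul_assoc (pi σ), hp2, one_mul, g2]
  · exact hent _ _ hB0 (fun i j => (hBle σ i j).1) (fun i j => (hb i j).1.trans (le_abs_self C)) i j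
  · have := hent κi (pi σ) (abs_nonneg C) (fun i j => (hb i j).2.trans (le_abs_self C))
      (fun i j => (hBle σ i j).2) i j
    rwa [mul_comm |C|] at this
  · rw [mul_assoc, ← hm1, ← mul_assoc, hp1, one_mul]

end bdd

end Vale.Agent.P092.H452.Rp
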