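import Vale.Agent.P092.H213.Rp.Defs

/-!
P092, project RP (helper452): the sum of the positive roots is positive on the simple coroots.
-/

set_option linter.all false

open Module

namespace Vale.Agent.P092.H452.Rp

open Vale.Agent.P092.H213.Rp

section mat

variable {k ι : Type*} [CommRing k] [Fintype ι] [DecidableEq ι]

/-- The trace of a commutator over a stable set of indices vanishes. -/
theorem sum_comm_eq_zero (A B : Matrix ι ι k) (S : Finset ι)
    (hA : ∀ i ∈ S, ∀ j, j ∉ S → A j i = 0) (hB : ∀ i ∈ S, ∀ j, j ∉ S → B j i = 0) :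
    ∑ i ∈ S, (A * B - B * A) i i = 0 := by
  have h1 : ∀ (A B : Matrix ι ι k), (∀ i ∈ S, ∀ j, j ∉ S → B j i = 0) →
      ∑ i ∈ S, (A * B) i i = ∑ i ∈ S, ∑ j ∈ S, A i j * B j i := by
    intro A B hB
    refine Finset.sum_congr rfl fun i hi => ?_
    rw [Matrix.mul_apply]
    refine (Finset.sum_subset (Finset.subset_univ S) fun j _ hj => ?_).symm
    rw [hB i hi j hj, mul_zero]
  simp only [Matrix.sub_apply, Finset.sum_sub_distrib]
  rw [h1 A B hB, h1 B A hA, Finset.sum_comm]
  simp only [mul_comm, sub_self]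

end mat

section rt

variable {k L : Type} [Field k] [LieRing L] [LieAlgebra k L] {n r : ℕ}
  {b : Basis (Fin n) k L} {wt : Fin n → Fin r → ℤ} {E F H : Fin r → L}

theorem mem_W {μ : Fin r → ℤ} {x : L} : x ∈ W b wt μ ↔ ∀ i, wt i ≠ μ → b.repr x i = 0 := by
  classical
  have e : {x | ∃ i, wt i = μ ∧ b i = x} = b '' {i | wt i = μ} := by
    ext y
    simp [Set.mem_image]
  rw [W, e, Basis.mem_span_image]
  constructor
  · intro h i hi
    by_contra h0
    exact hi (h (Finsupp.mem_support_iff.2 h0))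
  · intro h i hi
    by_contra h0
    exact Finsupp.mem_support_iff.1 hi (h i h0)

theorem basis_mem_W (i : Fin n) : b i ∈ W b wt (wt i) :=
  Submodule.subset_span ⟨i, rfl, rfl⟩

theorem repr_bracket_eq_zero (h : Rt b wt E F H) {μ : Fin r → ℤ} {x : L} (hx : x ∈ W b wt μ)
    {i j : Fin n} (hij : wt j ≠ μ + wt i) : b.repr ⁅x, b i⁆ j = 0 :=
  mem_W.1 (h.grad _ _ _ hx _ (basis_mem_W i)) j hij

variable [CharZero k]

/-- The eigenvalue of `H a` on a multiple of the simple root `a`. -/
theorem coroot_self (h : Rt b wt E F H) (a : Fin r) {c : Fin r → ℤ}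
    (hc : ∀ i, ⁅H a, b i⁆ = ((∑ j, wt i j * c j : ℤ) : k) • b i) :
    c a = 2 ∧ ∃ i, wt i = Pi.single a 1 := by
  classical
  have hE : E a ≠ 0 := by
    intro h0
    have := (h.tri a).lie_e_f
    have h1 := (h.tri a).h_ne_zero
    rw [h0, zero_lie] at this
    exact h1 this.symm
  obtain ⟨i, hi⟩ : ∃ i, b.repr (E a) i ≠ 0 := by
    by_contra hn
    push Not at hn
    exact hE (b.repr.map_eq_zero_iff.1 (Finsupp.ext hn))
  have hwi : wt i = Pi.single a 1 := by
    by_contra hw
    exact hi (mem_W.1 (h.wE a) i hw)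
  refine ⟨?_, i, hwi⟩
  -- compare the coefficient of `b i` in `⁅H a, E a⁆ = 2 E a`
  have h1 : ⁅H a, E a⁆ = ((c a : ℤ) : k) • E a := by
    conv_lhs => rw [← b.sum_repr (E a)]
    conv_rhs => rw [← b.sum_repr (E a)]
    rw [lie_sum, Finset.smul_sum]
    refine Finset.sum_congr rfl fun j _ => ?_
    rw [lie_smul, hc j, smul_comm]
    by_cases hj : wt j = Pi.single a 1
    · congr 2
      rw [hj]
      simp [Pi.single_apply]
    · rw [mem_W.1 (h.wE a) j hj]
      simp
  have h2 := (h.tri a).lie_h_e_nsmul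
  rw [h1] at h2
  have h3 : (((c a : ℤ) : k) - 2) • E a = 0 := by
    rw [sub_smul, h2]
    simp [two_smul]
  have h4 : ((c a : ℤ) : k) - 2 = 0 := by
    by_contra h5
    exact hE ((smul_eq_zero_iff_right h5).1 h3)
  have h5 : ((c a : ℤ) : k) = ((2 : ℤ) : k) := by
    push_cast
    linear_combination h4
  exact_mod_cast h5

/-- **The sum of the positive roots (with multiplicities) is positive on simple coroots.** -/
theorem rho_pos (h : Rt b wt E F H) (a : Fin r) {c : Fin r → ℤ}
    (hc : ∀ i, ⁅H a, b i⁆ = ((∑ j, wt i j * c j : ℤ) : k) • b i) :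
    0 < ∑ i ∈ Finset.univ.filter (fun i => ∀ j, 0 ≤ wt i j), ∑ j, wt i j * c j := by
  classical
  obtain ⟨hca, i₀, hi₀⟩ := coroot_self h a hc
  set P : Finset (Fin n) := Finset.univ.filter (fun i => ∀ j, 0 ≤ wt i j) with hP
  set S : Finset (Fin n) := Finset.univ.filter (fun i => ∃ j, j ≠ a ∧ 0 < wt i j) with hS
  -- the trace over `S` vanishes
  have hst : ∀ (x : L) (s : ℤ), x ∈ W b wt (Pi.single a s) → ∀ i ∈ S, ∀ j, j ∉ S →
      LinearMap.toMatrix b b (LieAlgebra.ad k L x) j i = 0 := by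
    intro x s hx i hi j hj
    rw [LinearMap.toMatrix_apply, LieAlgebra.ad_apply]
    refine repr_bracket_eq_zero h hx fun hw => hj ?_
    rw [hS, Finset.mem_filter] at hi ⊢
    obtain ⟨-, l, hl, hl0⟩ := hi
    refine ⟨Finset.mem_univ _, l, hl, ?_⟩
    rw [hw]
    simpa [Pi.single_apply, hl] using hl0
  have hE := hst (E a) 1 (h.wE a)
  have hF : ∀ i ∈ S, ∀ j, j ∉ S →
      LinearMap.toMatrix b b (LieAlgebra.ad k L (F a)) j i = 0 := by
    refine hst (F a) (-1) ?_
    have := h.wF a
    rwa [← Pi.single_neg] at this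
  have htr : ∑ i ∈ S, ∑ j, wt i j * c j = 0 := by
    have h0 := sum_comm_eq_zero _ _ S hE hF
    have h1 : LinearMap.toMatrix b b (LieAlgebra.ad k L (E a)) *
        LinearMap.toMatrix b b (LieAlgebra.ad k L (F a)) -
        LinearMap.toMatrix b b (LieAlgebra.ad k L (F a)) *
        LinearMap.toMatrix b b (LieAlgebra.ad k L (E a)) =
        LinearMap.toMatrix b b (LieAlgebra.ad k L (H a)) := by
      rw [← LinearMap.toMatrix_mul, ← LinearMap.toMatrix_mul, ← map_sub]
      congr 1
      refine LinearMap.ext fun y => ?_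
      rw [LinearMap.sub_apply, Module.End.mul_apply, Module.End.mul_apply, LieAlgebra.ad_apply,
        LieAlgebra.ad_apply, LieAlgebra.ad_apply, LieAlgebra.ad_apply, LieAlgebra.ad_apply,
        ← (h.tri a).lie_e_f, lie_lie]
    rw [h1] at h0
    have h2 : ∀ i, LinearMap.toMatrix b b (LieAlgebra.ad k L (H a)) i i =
        ((∑ j, wt i j * c j : ℤ) : k) := by
      intro i
      rw [LinearMap.toMatrix_apply, LieAlgebra.ad_apply, hc i]
      simp
    simp only [h2] at h0
    exact_mod_cast h0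
  -- `P` = (elements of `S`) and multiples of the simple root
  have hdec : ∑ i ∈ P, ∑ j, wt i j * c j =
      ∑ i ∈ S, ∑ j, wt i j * c j + ∑ i ∈ P \ S, ∑ j, wt i j * c j := by
    have hSP : S ⊆ P := by
      intro i hi
      rw [hS, Finset.mem_filter] at hi
      obtain ⟨-, l, -, hl⟩ := hi
      rw [hP, Finset.mem_filter]
      refine ⟨Finset.mem_univ _, ?_⟩
      rcases h.sgn i with h1 | h1
      · exact h1
      · exact absurd (h1 l) (not_le.2 hl)
    rw [← Finset.sum_sdiff hSP, add_comm]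
  rw [hdec, htr, zero_add]
  have hval : ∀ i ∈ P \ S, ∑ j, wt i j * c j = 2 * wt i a := by
    intro i hi
    rw [Finset.mem_sdiff, hP, hS, Finset.mem_filter, Finset.mem_filter] at hi
    obtain ⟨⟨-, hi1⟩, hi2⟩ := hi
    have hz : ∀ j, j ≠ a → wt i j = 0 := by
      intro j hj
      by_contra h0
      exact hi2 ⟨Finset.mem_univ _, j, hj, lt_of_le_of_ne (hi1 j) (Ne.symm h0)⟩
    rw [Finset.sum_eq_single a (fun j _ hj => by rw [hz j hj, zero_mul])
      (fun h0 => absurd (Finset.mem_univ a) h0), hca]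
    ring
  refine Finset.sum_pos' (fun i hi => ?_) ⟨i₀, ?_, ?_⟩
  · rw [hval i hi]
    have := (Finset.mem_filter.1 (Finset.mem_sdiff.1 hi).1).2 a
    linarith
  · rw [Finset.mem_sdiff, hP, hS, Finset.mem_filter, Finset.mem_filter, hi₀]
    refine ⟨⟨Finset.mem_univ _, fun j => ?_⟩, ?_⟩
    · rw [Pi.single_apply]
      split_ifs <;> norm_num
    · rintro ⟨-, j, hj, h0⟩
      rw [Pi.single_apply, if_neg hj] at h0
      exact lt_irrefl _ h0
  · rw [hval i₀ ?_, hi₀]
    · simp
    · rw [Finset.mem_sdiff, hP, hS, Finset.mem_filter, Finset.mem_filter, hi₀]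
      refine ⟨⟨Finset.mem_univ _, fun j => ?_⟩, ?_⟩
      · rw [Pi.single_apply]
        split_ifs <;> norm_num
      · rintro ⟨-, j, hj, h0⟩
        rw [Pi.single_apply, if_neg hj] at h0
        exact lt_irrefl _ h0

end rt

end Vale.Agent.P092.H452.Rp
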