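import Vale.Agent.P092.H452.Rp.Levi
import Mathlib.Topology.Algebra.Polynomial

/-!
P092, project RP (helper452): a unipotent automorphism `u` is bounded if `u h₀` is bounded, `h₀` the
grading element: `u` is a polynomial in `ad (u h₀)`.
-/

set_option linter.all false

open Module Filter Topology

namespace Vale.Agent.P092.H452.Rp

open Vale.Agent.P092.H213.Rp

section alg

variable {k L : Type} [Field k] [CharZero k] [LieRing L] [LieAlgebra k L] {n : ℕ}
  {b : Basis (Fin n) k L}

/-- the Lagrange polynomial which is `1` at `d i` and `0` at the other degrees -/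
noncomputable def lagr (k : Type) [Field k] (d : Fin n → ℤ) (i : Fin n) : Polynomial k :=
  ∏ c ∈ (Finset.univ.image d).erase (d i),
    (Polynomial.C (((d i : k) - (c : k))⁻¹) * (Polynomial.X - Polynomial.C (c : k)))

theorem lagr_self (d : Fin n → ℤ) (i : Fin n) : (lagr k d i).eval (d i : k) = 1 := by
  rw [lagr, Polynomial.eval_prod]
  refine Finset.prod_eq_one fun c hc => ?_
  rw [Polynomial.eval_mul, Polynomial.eval_C, Polynomial.eval_sub, Polynomial.eval_X,
    Polynomial.eval_C]
  refine inv_mul_cancel₀ (sub_ne_zero.2 fun h0 => ?_)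
  have : d i = c := by exact_mod_cast h0
  exact (Finset.ne_of_mem_erase hc) this.symm

theorem lagr_ne (d : Fin n → ℤ) {i j : Fin n} (hij : d j ≠ d i) :
    (lagr k d i).eval (d j : k) = 0 := by
  rw [lagr, Polynomial.eval_prod]
  refine Finset.prod_eq_zero (i := d j) (Finset.mem_erase.2 ⟨hij, Finset.mem_image_of_mem _
    (Finset.mem_univ j)⟩) ?_
  simp only [Polynomial.eval_mul, Polynomial.eval_sub, Polynomial.eval_X, Polynomial.eval_C,
    sub_self, mul_zero]

theorem aeval_eigen (p : Polynomial k) {T : Module.End k L} {x : L} {c : k} (hx : T x = c • x) :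
    Polynomial.aeval T p x = p.eval c • x := by
  induction p using Polynomial.induction_on' with
  | add p q hp hq => rw [map_add, LinearMap.add_apply, hp, hq, Polynomial.eval_add, add_smul]
  | monomial m a =>
    have h1 : ∀ m : ℕ, (T ^ m) x = c ^ m • x := by
      intro m
      induction m with
      | zero => simp
      | succ m ih => rw [pow_succ', Module.End.mul_apply, ih, map_smul, hx, smul_smul, pow_succ]
    rw [Polynomial.aeval_monomial, Module.End.mul_apply, h1, Polynomial.eval_monomial, map_smul,
      Module.algebraMap_end_apply, smul_smul, mul_comm]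

theorem aeval_conj (p : Polynomial k) {T S u ui : Module.End k L} (h2 : ui * u = 1)
    (hS : S * u = u * T) : Polynomial.aeval S p * u = u * Polynomial.aeval T p := by
  induction p using Polynomial.induction_on' with
  | add p q hp hq => rw [map_add, map_add, add_mul, mul_add, hp, hq]
  | monomial m a =>
    have h1 : ∀ m : ℕ, S ^ m * u = u * T ^ m := by
      intro m
      induction m with
      | zero => simp
      | succ m ih => rw [pow_succ, mul_assoc, hS, ← mul_assoc, ih, mul_assoc, pow_succ]
    rw [Polynomial.aeval_monomial, Polynomial.aeval_monomial, mul_assoc, h1, ← mul_assoc,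
      ← mul_assoc, Algebra.commutes]

/-- `u` is a polynomial in `ad (u h₀)`. -/
theorem eq_aeval {d : Fin n → ℤ} {h₀ : L} (hd : ∀ i, ⁅h₀, b i⁆ = (d i : k) • b i)
    {u ui : Module.End k L} (hu : IsAut u) (h1 : u * ui = 1) (h2 : ui * u = 1)
    (ht : ∀ i j, d i ≤ d j → b.repr (ui (b i)) j = if j = i then 1 else 0) (i : Fin n) :
    u (b i) = Polynomial.aeval (LieAlgebra.ad k L (u h₀) : Module.End k L) (lagr k d i) (b i) := by
  classical
  have hS : (LieAlgebra.ad k L (u h₀) : Module.End k L) * u =
      u * (LieAlgebra.ad k L h₀ : Module.End k L) := by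
    refine LinearMap.ext fun y => ?_
    rw [Module.End.mul_apply, Module.End.mul_apply, LieAlgebra.ad_apply, LieAlgebra.ad_apply,
      hu.2]
  have hc := aeval_conj (lagr k d i) h2 hS
  have h3 : u (ui (b i)) = b i := by rw [← Module.End.mul_apply, h1, Module.End.one_apply]
  have h4 := LinearMap.congr_fun hc (ui (b i))
  rw [Module.End.mul_apply, Module.End.mul_apply, h3] at h4
  rw [h4]
  congr 1
  -- the polynomial of `ad h₀` at `ui (b i)`
  conv_rhs => rw [← b.sum_repr (ui (b i))]
  rw [map_sum, Finset.sum_eq_single i]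
  · rw [map_smul, aeval_eigen _ (show (LieAlgebra.ad k L h₀ : Module.End k L) (b i) = _ from hd i),
      lagr_self, one_smul, ht i i le_rfl, if_pos rfl, one_smul]
  · intro j _ hj
    rw [map_smul, aeval_eigen _ (show (LieAlgebra.ad k L h₀ : Module.End k L) (b j) = _ from hd j)]
    by_cases hdj : d j = d i
    · rw [ht i j hdj.ge, if_neg hj, zero_smul]
    · rw [lagr_ne d hdj, zero_smul, smul_zero]
  · intro h0
    exact absurd (Finset.mem_univ i) h0

end alg

section bdd

variable {k : Type} [NontriviallyNormedField k] [ProperSpace k] [CharZero k] {L : Type} [LieRing L]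
  [LieAlgebra k L] {n : ℕ} {b : Basis (Fin n) k L}

theorem continuous_ad (b : Basis (Fin n) k L) : Continuous fun z : Fin n → k =>
    LinearMap.toMatrix b b (LieAlgebra.ad k L (b.equivFun.symm z)) := by
  have h1 : (fun z : Fin n → k => LinearMap.toMatrix b b (LieAlgebra.ad k L (b.equivFun.symm z))) =
      fun z => ∑ i, z i • LinearMap.toMatrix b b (LieAlgebra.ad k L (b i)) := by
    funext z
    rw [Basis.equivFun_symm_apply, map_sum, map_sum]
    refine Finset.sum_congr rfl fun i _ => ?_
    rw [map_smul, map_smul]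
  rw [h1]
  exact continuous_finset_sum _ fun i _ => (continuous_apply i).smul continuous_const

/-- **`u` is bounded if `u h₀` is.** -/
theorem bdd_of_h0 {d : Fin n → ℤ} {h₀ : L} (hd : ∀ i, ⁅h₀, b i⁆ = (d i : k) • b i) (R : ℝ) :
    ∃ C : ℝ, ∀ u ui : Module.End k L, IsAut u → u * ui = 1 → ui * u = 1 →
      (∀ i j, d i ≤ d j → b.repr (ui (b i)) j = if j = i then 1 else 0) →
      nm b (u h₀) ≤ R → ∀ i j, ‖LinearMap.toMatrix b b u i j‖ ≤ C := by
  classical
  have hK : IsCompact (Metric.closedBall (0 : Fin n → k) R) := isCompact_closedBall _ _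
  have hcont : ∀ i j, Continuous fun z : Fin n → k => ‖(Polynomial.aeval
      (LinearMap.toMatrix b b (LieAlgebra.ad k L (b.equivFun.symm z)) :
        Matrix (Fin n) (Fin n) k) (lagr k d j)) i j‖ := by
    intro i j
    have h1 : Continuous fun A : Matrix (Fin n) (Fin n) k =>
        Polynomial.aeval A (lagr k d j) := Polynomial.continuous_aeval _
    exact continuous_norm.comp ((h1.comp (continuous_ad b)).matrix_elem i j)
  have hb : ∀ i j, ∃ C : ℝ, ∀ z ∈ Metric.closedBall (0 : Fin n → k) R,
      ‖(Polynomial.aeval (LinearMap.toMatrix b b (LieAlgebra.ad k L (b.equivFun.symm z)) :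
        Matrix (Fin n) (Fin n) k) (lagr k d j)) i j‖ ≤ C := by
    intro i j
    obtain ⟨C, hC⟩ := (hK.bddAbove_image (hcont i j).continuousOn)
    exact ⟨C, fun z hz => hC ⟨z, hz, rfl⟩⟩
  choose C hC using hb
  refine ⟨∑ i, ∑ j, |C i j|, fun u ui hu h1 h2 ht hR i j => ?_⟩
  have h3 : LinearMap.toMatrix b b u i j = (Polynomial.aeval
      (LinearMap.toMatrix b b (LieAlgebra.ad k L (u h₀)) : Matrix (Fin n) (Fin n) k)
        (lagr k d j)) i j := by
    have h4 : Polynomial.aeval (LinearMap.toMatrix b b (LieAlgebra.ad k L (u h₀)) :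
        Matrix (Fin n) (Fin n) k) (lagr k d j) =
        LinearMap.toMatrix b b (Polynomial.aeval (LieAlgebra.ad k L (u h₀) : Module.End k L)
          (lagr k d j)) := by
      have := Polynomial.aeval_algHom_apply (LinearMap.toMatrixAlgEquiv b).toAlgHom
        (LieAlgebra.ad k L (u h₀) : Module.End k L) (lagr k d j)
      exact this
    rw [h4, LinearMap.toMatrix_apply, LinearMap.toMatrix_apply,
      eq_aeval hd hu h1 h2 ht j]
  rw [h3]
  have h5 : b.equivFun (u h₀) ∈ Metric.closedBall (0 : Fin n → k) R := by
    rw [mem_closedBall_zero_iff]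
    exact hR
  have h6 := hC i j _ h5
  rw [LinearEquiv.symm_apply_apply] at h6
  refine h6.trans ((le_abs_self _).trans ?_)
  refine le_trans ?_ (Finset.single_le_sum (f := fun i => ∑ j, |C i j|)
    (fun _ _ => Finset.sum_nonneg fun _ _ => abs_nonneg _) (Finset.mem_univ i))
  exact Finset.single_le_sum (f := fun j => |C i j|) (fun _ _ => abs_nonneg _) (Finset.mem_univ j)

end bdd

end Vale.Agent.P092.H452.Rp
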